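import Vale.Agent.P280K87.Ord
import Vale.Agent.P280C88.AH
import Vale.Agent.P299G40.GPsi

/-!
# P280: the row COV
-/

open scoped Manifold ContDiff Topology
open MvPolynomial Matrix Filter
open Vale.Agent.P272.K Vale.Agent.P285.H281.FD Vale.Agent.P300.Final Vale.Agent.P299G40
open Vale.Agent.P280Z (QuoC)
open Vale.Agent.P009.AV (aff)
open Vale.Agent.P280C88 (Tn ix ix_ne Tm rho Am beta smul_aff ex_u of_u beta_fr beta_ne beta_pair
  ex_det Tm_inj rho_ne rho_dot an_beta ex_H Am_fr)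

noncomputable section

namespace Vale.Agent.P280A.K87

theorem eval_smul' {ι : Type} [Fintype ι] {P : MvPolynomial ι ℂ} {d : ℕ} (h : P.IsHomogeneous d)
    (t : ℂ) (v : ι → ℂ) : eval (t • v) P = t ^ d * eval v P := by
  rw [eval_eq', eval_eq', Finset.mul_sum]
  refine Finset.sum_congr rfl fun s hs => ?_
  have h1 : ∑ i, s i = d := by
    rw [h.degree_eq_sum_deg_support hs]
    exact (Finset.sum_subset (Finset.subset_univ _) fun i _ hi =>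
      Finsupp.notMem_support_iff.1 hi).symm
  simp only [Pi.smul_apply, smul_eq_mul, mul_pow, Finset.prod_mul_distrib,
    Finset.prod_pow_eq_pow_sum, h1]
  ring

variable {n N K : ℕ} {Z : Set (PN N)} {X : Type} [TopologicalSpace X] [ChartedSpace (Cm n) X]
  [IsManifold 𝓘(ℂ, Cm n) ω X] {Φ : X → PN N} {S : Type} [TopologicalSpace S]
  [ChartedSpace (Cm 1) S] {f : S → X} {L : Bd S} {α : Chart n X → L.ι → S → Cm n} {p : S}

theorem an_aff (hΦ : IsProjectiveImmersion (Cm n) Φ)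
    (hf : ContMDiff 𝓘(ℂ, Cm 1) 𝓘(ℂ, Cm n) ω f) {i : Fin (N + 1)} (hi : (Φ (f p)).rep i ≠ 0)
    (j : Fin (N + 1)) : An (fun c => aff i (Φ (f c)) j) p :=
  an_pi.1 (an_comp_chart (hf p) (at_chart (f p)) (g := fun x => aff i (Φ x))
    ((lift_aff hΦ i).holo _ hi _ (at_chart (f p))).analyticAt) j

theorem ev_ne (hΦ : IsProjectiveImmersion (Cm n) Φ)
    (hf : ContMDiff 𝓘(ℂ, Cm 1) 𝓘(ℂ, Cm n) ω f) {i : Fin (N + 1)} (hi : (Φ (f p)).rep i ≠ 0) :
    ∀ᶠ c in 𝓝 p, (Φ (f c)).rep i ≠ 0 :=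
  hf.continuous.continuousAt.eventually ((lift_aff hΦ i).isOpen.mem_nhds hi)

theorem an_Tm (hΦ : IsProjectiveImmersion (Cm n) Φ)
    (hf : ContMDiff 𝓘(ℂ, Cm 1) 𝓘(ℂ, Cm n) ω f) {e : Chart n X} {i : Fin (N + 1)}
    (he : At e (f p)) (hi : (Φ (f p)).rep i ≠ 0) (j : Fin (N + 1)) (k : Option (Fin n)) :
    An (fun c => Tm Φ e i (f c) j k) p := by
  cases k with
  | none => exact an_aff hΦ hf hi j
  | some k =>
    have h1 := ((lift_aff hΦ i).holo _ hi _ he).analyticAt.fderiv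
    have h2 : AnalyticAt ℂ (fun z => fderiv ℂ (fun z => aff i (Φ (e.symm z))) z (Pi.single k 1))
        (e (f p)) :=
      ((ContinuousLinearMap.apply ℂ (Fin (N + 1) → ℂ) (Pi.single k 1 : Cm n)).analyticAt _).comp h1
    exact an_pi.1 (An.comp (u := fun c => e (f c)) h2 (an_chart_comp (hf p) he)) j

omit [IsManifold 𝓘(ℂ, Cm n) ω X] in
theorem an_rho (hQ : QuoC n f L α) {e : Chart n X} {a : L.ι} (he : At e (f p)) (ha : p ∈ L.U a)
    (k : Option (Fin n)) : An (fun c => rho (α e a c) k) p := by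
  cases k with
  | none => exact an_const (0 : ℂ)
  | some k => exact an_pi.1 (show An (α e a) p from hQ.hol e a p he ha _ (at_chart p)) k

omit [IsManifold 𝓘(ℂ, Cm n) ω X] in
theorem ev_at (hf : ContMDiff 𝓘(ℂ, Cm 1) 𝓘(ℂ, Cm n) ω f) {e : Chart n X} (he : At e (f p)) :
    ∀ᶠ c in 𝓝 p, At e (f c) :=
  (hf.continuous.continuousAt.eventually (e.open_source.mem_nhds he.2)).mono
    fun _ h => ⟨he.1, h⟩

/-- the zeros of a coordinate are isolated -/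
theorem ne_coord [PreconnectedSpace S] (hΦ : IsProjectiveImmersion (Cm n) Φ)
    (hf : ContMDiff 𝓘(ℂ, Cm 1) 𝓘(ℂ, Cm n) ω f) {i : Fin (N + 1)} {c₀ : S}
    (hi : (Φ (f c₀)).rep i ≠ 0) (p : S) : ∀ᶠ c in 𝓝[≠] p, (Φ (f c)).rep i ≠ 0 :=
  ident1 (Z := {c | (Φ (f c)).rep i = 0}) (fun q =>
    ⟨fun c => aff (ix (Φ (f q))) (Φ (f c)) i, an_aff hΦ hf (ix_ne _) i,
      (ev_ne hΦ hf (ix_ne (Φ (f q)))).mono fun c hc => by
        show _ = 0 ↔ _ / _ = 0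
        rw [div_eq_zero_iff, or_iff_left hc]⟩) hi p

theorem cov87 (hTAN : TAN) (hMAP : MAP) : COV := by
  intro n N K Z X _ _ _ Φ S _ _ _ _ _ _ Θ f L α hZ hA hΘi hΘ hf hL hQ
  have hT : Tn n Z Φ := hTAN n N Z X Φ hZ hA
  have hΦ := hA.2.1
  choose H hH1 hH2 using fun c => ex_H (c := c) hT hQ hL (hA.2.2 ▸ Set.mem_range_self (f c))
  refine ⟨H, Am Φ f α, hH1, fun a c ha => hH2 c a ha, fun a b c w ha hb => Am_fr hQ ha hb w,
    fun c₀ => ?_⟩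
  obtain ⟨M, ⟨ε⟩⟩ : ∃ M : ℕ,
      Nonempty (Fin (M + 1) ≃ (Option (Fin n) → Fin (N + 1)) × Option (Fin n)) := by
    obtain ⟨M, hM⟩ := Nat.exists_eq_succ_of_ne_zero
      (Fintype.card_ne_zero (α := (Option (Fin n) → Fin (N + 1)) × Option (Fin n)))
    exact ⟨M, ⟨(Fintype.equivFinOfCardEq hM).symm⟩⟩
  choose a₀ ha₀ using hL.cover
  let B : Chart n X → Fin (N + 1) → L.ι → S → Fin (M + 1) → ℂ := fun e i a c k =>
    beta (Tm Φ e i (f c)) (rho (α e a c)) (ε k)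
  have hB : ∀ e i a c, At e (f c) → (Φ (f c)).rep i ≠ 0 → c ∈ L.U a → B e i a c ≠ 0 := by
    intro e i a c he hi ha h0
    refine beta_ne _ _ (Tm_inj hT he hi) (rho_ne (hQ.nz e a c he ha)) (funext fun q => ?_)
    have := congrFun h0 (ε.symm q)
    simpa only [B, Equiv.apply_symm_apply, Pi.zero_apply] using this
  let Ψ : S → PN M := fun c => Projectivization.mk ℂ
    (B (chartAt (Cm n) (f c)) (ix (Φ (f c))) (a₀ c) c) (hB _ _ _ _ (at_chart _) (ix_ne _) (ha₀ c))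
  have hΨ : ∀ e i a c (he : At e (f c)) (hi : (Φ (f c)).rep i ≠ 0) (ha : c ∈ L.U a),
      Ψ c = Projectivization.mk ℂ (B e i a c) (hB e i a c he hi ha) := by
    intro e i a c he hi ha
    obtain ⟨μ, hμ⟩ := beta_fr hT hQ he hi ha (at_chart (f c)) (ix_ne _) (ha₀ c)
    exact (Projectivization.mk_eq_mk_iff' ℂ _ _ _ _).2
      ⟨μ, funext fun k => (congrFun hμ (ε k)).symm⟩
  have hP : HolP 1 Ψ := by
    intro x
    have h0 : An (B (chartAt (Cm n) (f x)) (ix (Φ (f x))) (a₀ x)) x := an_pi.2 fun k =>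
      an_beta (T := fun t => Tm Φ _ _ (f ((chartAt (Cm 1) x).symm t)))
        (ρ := fun t => rho (α _ _ ((chartAt (Cm 1) x).symm t)))
        (an_Tm hΦ hf (at_chart _) (ix_ne _)) (an_rho hQ (at_chart _) (ha₀ x)) (ε k)
    refine ⟨B (chartAt (Cm n) (f x)) (ix (Φ (f x))) (a₀ x), fun e he => h0.chart he, ?_⟩
    filter_upwards [ev_at hf (at_chart (f x)), ev_ne hΦ hf (ix_ne (Φ (f x))),
      (hL.isOpen _).mem_nhds (ha₀ x)] with y h1 h2 h3
    exact ⟨_, hΨ _ _ _ y h1 h2 h3⟩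
  obtain ⟨ψ, hψ, hψΘ⟩ := hMAP 1 K M S Θ Ψ hΘi hΘ hP
  obtain ⟨F, d, hF, hF0, hFψ⟩ := hψ (Θ c₀) ⟨c₀, rfl⟩
  have hν : ∀ e i a c, At e (f c) → (Φ (f c)).rep i ≠ 0 → c ∈ L.U a →
      ∃ ν : ℂ, ν • B e i a c = val F (Θ c) := by
    intro e i a c he hi ha
    by_cases h : val F (Θ c) = 0
    · exact ⟨0, by rw [zero_smul, h]⟩
    · exact (Projectivization.mk_eq_mk_iff' ℂ _ _ _ _).1
        ((hFψ _ ⟨c, rfl⟩ h).symm.trans ((hψΘ c).trans (hΨ e i a c he hi ha)))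
  obtain ⟨I, hI⟩ := ex_det _ (Tm_inj hT (at_chart (f c₀)) (ix_ne (Φ (f c₀))))
  let P : Fin (N + 1) → MvPolynomial (Fin (K + 1)) ℂ := fun j =>
    ∑ k, if I k = j then F (ε.symm (I, k)) else 0
  have hPh : ∀ j, (P j).IsHomogeneous d := fun j => IsHomogeneous.sum _ _ _ fun k _ => by
    split_ifs
    · exact hF _
    · exact isHomogeneous_zero _ _ _
  have hPw : ∀ y w, val P y ⬝ᵥ w = ∑ k, val F y (ε.symm (I, k)) * w (I k) := by
    intro y w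
    simp only [val, P, dotProduct, map_sum, Finset.sum_mul]
    rw [Finset.sum_comm]
    refine Finset.sum_congr rfl fun k _ => ?_
    rw [Finset.sum_eq_single (I k) (fun j _ hj => by rw [if_neg hj.symm, map_zero, zero_mul])
      (fun h => absurd (Finset.mem_univ _) h), if_pos rfl]
  have hkey : ∀ e i a c ν, At e (f c) → (Φ (f c)).rep i ≠ 0 → c ∈ L.U a →
      ν • B e i a c = val F (Θ c) → ∀ w ∈ tangent Z (Φ (f c)), val P (Θ c) ⬝ᵥ w =
        ν * (Φ (f c)).rep i * ((Tm Φ e i (f c)).submatrix I id).det * Am Φ f α a c w := by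
    intro e i a c ν he hi ha h w hw
    obtain ⟨u, h1, h2⟩ := ex_u hT hQ he hi ha hw
    rw [hPw, h2, mul_assoc, ← beta_pair, Finset.mul_sum, ← h]
    refine Finset.sum_congr rfl fun k _ => ?_
    rw [h1]
    simp only [B, Pi.smul_apply, smul_eq_mul, Equiv.apply_symm_apply]
    ring
  have hloc : ∀ p a, p ∈ L.U a → ∃ R : S → ℂ, An R p ∧ ∀ᶠ c in 𝓝 p,
      (∀ w ∈ tangent Z (Φ (f c)), val P (Θ c) ⬝ᵥ w =
        (Θ c).rep (ix (Θ p)) ^ d * (Φ (f c)).rep (ix (Φ (f p))) * R c * Am Φ f α a c w) ∧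
      ∃ w ∈ tangent Z (Φ (f c)), Am Φ f α a c w ≠ 0 := by
    intro p a ha
    obtain ⟨k, hk⟩ := Function.ne_iff.1 (hQ.nz _ a p (at_chart (f p)) ha)
    have hα := an_rho hQ (at_chart (f p)) ha (some k)
    refine ⟨fun c => (∑ j, eval (aff (ix (Θ p)) (Θ c)) (P j) *
      Tm Φ (chartAt (Cm n) (f p)) (ix (Φ (f p))) (f c) j (some k)) /
        rho (α (chartAt (Cm n) (f p)) a c) (some k), An.div (an_sum _ fun j _ =>
        (an_eval _ (an_aff (f := id) hΘ contMDiff_id (ix_ne (Θ p)))).mul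
          (an_Tm hΦ hf (at_chart _) (ix_ne _) j _)) hα hk, ?_⟩
    filter_upwards [ev_at hf (at_chart (f p)), ev_ne hΦ hf (ix_ne (Φ (f p))),
      (hL.isOpen _).mem_nhds ha, ev_ne (f := id) hΘ contMDiff_id (ix_ne (Θ p)),
      hα.continuousAt.eventually_ne hk] with c h1 h2 h3 h4 h5
    obtain ⟨ν, h6⟩ := hν _ _ _ c h1 h2 h3
    obtain ⟨h7, h8⟩ := of_u hT hQ h1 h2 h3 (Pi.single (some k) 1)
    rw [dotProduct_single, mul_one] at h8
    have h9 := hkey _ _ _ c ν h1 h2 h3 h6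
    refine ⟨fun w hw => ?_, _, h7, h8 ▸ h5⟩
    have h10 := h9 _ h7
    rw [h8, dotProduct_smul, mulVec_single_one] at h10
    have h11 : val P (Θ c) ⬝ᵥ (Tm Φ (chartAt (Cm n) (f p)) (ix (Φ (f p))) (f c)).col (some k) =
        (Θ c).rep (ix (Θ p)) ^ d * ∑ j, eval (aff (ix (Θ p)) (Θ c)) (P j) *
          Tm Φ (chartAt (Cm n) (f p)) (ix (Φ (f p))) (f c) j (some k) := by
      rw [Finset.mul_sum]
      refine Finset.sum_congr rfl fun j _ => ?_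
      rw [← mul_assoc, ← eval_smul' (hPh j), smul_aff (z := Θ c) h4]
      rfl
    rw [h11, smul_eq_mul] at h10
    rw [h9 w hw]
    congr 1
    rw [← mul_div_assoc, eq_div_iff h5, ← h10]
    ring
  let E : Set S := {c | ∀ w ∈ tangent Z (Φ (f c)), val P (Θ c) ⬝ᵥ w = 0}
  have hE : ∀ p a, p ∈ L.U a → ∀ R : S → ℂ, (∀ᶠ c in 𝓝 p,
      (∀ w ∈ tangent Z (Φ (f c)), val P (Θ c) ⬝ᵥ w =
        (Θ c).rep (ix (Θ p)) ^ d * (Φ (f c)).rep (ix (Φ (f p))) * R c * Am Φ f α a c w) ∧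
      ∃ w ∈ tangent Z (Φ (f c)), Am Φ f α a c w ≠ 0) → ∀ᶠ c in 𝓝 p, (c ∈ E ↔ R c = 0) := by
    intro p a _ R h
    filter_upwards [h, ev_ne hΦ hf (ix_ne (Φ (f p))),
      ev_ne (f := id) hΘ contMDiff_id (ix_ne (Θ p))] with c ⟨h1, w, hw, h2⟩ h3 h4
    refine ⟨fun h5 => ?_, fun h5 v hv => by rw [h1 v hv, h5, mul_zero, zero_mul]⟩
    have h6 := (h1 w hw).symm.trans (h5 w hw)
    exact (mul_eq_zero.1 ((mul_eq_zero.1 h6).resolve_right h2)).resolve_left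
      (mul_ne_zero (pow_ne_zero _ h4) h3)
  have h0 : c₀ ∉ E := by
    intro h
    obtain ⟨ν, h1⟩ := hν _ _ _ c₀ (at_chart _) (ix_ne _) (ha₀ c₀)
    obtain ⟨R, -, h2⟩ := hloc c₀ _ (ha₀ c₀)
    obtain ⟨w, hw, h3⟩ := h2.self_of_nhds.2
    have h4 := (hkey _ _ _ c₀ ν (at_chart _) (ix_ne _) (ha₀ c₀) h1 w hw).symm.trans (h w hw)
    refine mul_ne_zero (mul_ne_zero (mul_ne_zero (fun h5 => hF0 ?_) (ix_ne _)) hI) h3 h4
    rw [← h1, h5, zero_smul]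
  have hEd : ∀ p, ∀ᶠ c in 𝓝[≠] p, c ∉ E := ident1 (fun p =>
    let ⟨R, h1, h2⟩ := hloc p _ (ha₀ p)
    ⟨R, h1, hE p _ (ha₀ p) R h2⟩) h0
  refine ⟨P, d, ix (Θ c₀), ix (Φ (f c₀)), E, hPh, ix_ne _, ix_ne _, finite_of_discrete hEd, h0,
    fun c hc w hw => ?_, fun p a ha => ?_⟩
  · obtain ⟨ν, h1⟩ := hν _ _ _ c (at_chart _) (ix_ne _) (ha₀ c)
    have h2 := hkey _ _ _ c ν (at_chart _) (ix_ne _) (ha₀ c) h1
    rw [hH2 c _ (ha₀ c) w hw, h2 w hw, mul_eq_zero, or_iff_right]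
    intro h3
    exact hc fun v hv => by rw [h2 v hv, h3, zero_mul]
  · obtain ⟨R, h1, h2⟩ := hloc p a ha
    have h3 := hE p a ha R h2
    have n1 := ne_coord (f := id) hΘ contMDiff_id (ix_ne (Θ c₀)) p
    have n2 := ne_coord hΦ hf (ix_ne (Φ (f c₀))) p
    have e1 := ev_ne (f := id) hΘ contMDiff_id (ix_ne (Θ p))
    have e2 := ev_ne hΦ hf (ix_ne (Φ (f p)))
    obtain ⟨k₁, o1, z1⟩ := h1.ord' (((hEd p).and (nhdsWithin_le_nhds h3)).mono
      fun c hc h => hc.1 (hc.2.2 h))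
    obtain ⟨k₂, o2, z2⟩ := (an_aff (f := id) hΘ contMDiff_id (ix_ne (Θ p)) (ix (Θ c₀))).ord'
      ((n1.and (nhdsWithin_le_nhds e1)).mono fun c hc => div_ne_zero hc.1 hc.2)
    obtain ⟨k₃, o3, z3⟩ := (an_aff hΦ hf (ix_ne (Φ (f p))) (ix (Φ (f c₀)))).ord'
      ((n2.and (nhdsWithin_le_nhds e2)).mono fun c hc => div_ne_zero hc.1 hc.2)
    refine ⟨_, _, o1.div ((o2.pow d).mul o3), ?_, ?_⟩
    · rintro rfl
      rw [z1.1 fun h => h0 (h3.self_of_nhds.2 h), z2.1 (div_ne_zero (ix_ne _) (ix_ne _)),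
        z3.1 (div_ne_zero (ix_ne _) (ix_ne _))]
      simp
    · filter_upwards [n1, n2, nhdsWithin_le_nhds e1, nhdsWithin_le_nhds e2,
        nhdsWithin_le_nhds h2] with c a1 a2 a3 a4 a5 w hw
      rw [a5.1 w hw]
      simp only [aff, id, div_pow] at a1 a3 ⊢
      field_simp

end Vale.Agent.P280A.K87

end
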