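import Vale.Agent.P280A30.Rows

/-!
# P280: orders of meromorphic functions on a Riemann surface, the identity theorem
-/

open scoped Manifold ContDiff Topology
open Filter Vale.Agent.P272.K

noncomputable section

namespace Vale.Agent.P280A

variable {S : Type} [TopologicalSpace S] [ChartedSpace (Cm 1) S]

/-- `u` is holomorphic at `p`. -/
def An {F : Type} [NormedAddCommGroup F] [NormedSpace ℂ F] (u : S → F) (p : S) : Prop :=
  AnalyticAt ℂ (fun z => u ((chartAt (Cm 1) p).symm z)) (chartAt (Cm 1) p p)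

/-- The local parameter at `p`. -/
def lpar (p x : S) : ℂ := chartAt (Cm 1) p x 0 - chartAt (Cm 1) p p 0

section an

variable {F : Type} [NormedAddCommGroup F] [NormedSpace ℂ F] {p : S}

theorem An.continuousAt {u : S → F} (h : An u p) : ContinuousAt u p := by
  have := (AnalyticAt.continuousAt h).comp
    ((chartAt (Cm 1) p).continuousAt (mem_chart_source _ p))
  refine this.congr ?_
  filter_upwards [(chartAt (Cm 1) p).open_source.mem_nhds (mem_chart_source _ p)] with z hz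
  exact congrArg u ((chartAt (Cm 1) p).left_inv hz)

theorem An.congr {u v : S → F} (h : An u p) (e : u =ᶠ[𝓝 p] v) : An v p :=
  AnalyticAt.congr h (((chartAt (Cm 1) p).tendsto_symm (mem_chart_source _ p)).eventually e)

theorem an_const (c : F) : An (fun _ : S => c) p := analyticAt_const

theorem An.comp {G : Type} [NormedAddCommGroup G] [NormedSpace ℂ G] {u : S → F} {g : F → G}
    (hg : AnalyticAt ℂ g (u p)) (h : An u p) : An (fun x => g (u x)) p :=
  AnalyticAt.comp_of_eq hg h (congrArg u ((chartAt (Cm 1) p).left_inv (mem_chart_source _ p)))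

theorem An.add {u v : S → F} (h : An u p) (h' : An v p) : An (fun x => u x + v x) p :=
  AnalyticAt.add h h'

theorem An.sub {u v : S → F} (h : An u p) (h' : An v p) : An (fun x => u x - v x) p :=
  AnalyticAt.sub h h'

theorem An.smul {u : S → ℂ} {v : S → F} (h : An u p) (h' : An v p) :
    An (fun x => u x • v x) p := AnalyticAt.smul h h'

theorem An.mul {u v : S → ℂ} (h : An u p) (h' : An v p) : An (fun x => u x * v x) p :=
  AnalyticAt.mul h h'

theorem An.pow {u : S → ℂ} (h : An u p) (k : ℕ) : An (fun x => u x ^ k) p := AnalyticAt.pow h k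

theorem An.inv {u : S → ℂ} (h : An u p) (h0 : u p ≠ 0) : An (fun x => (u x)⁻¹) p :=
  An.comp (g := fun z : ℂ => z⁻¹) (analyticAt_inv h0) h

theorem An.div {u v : S → ℂ} (h : An u p) (h' : An v p) (h0 : v p ≠ 0) :
    An (fun x => u x / v x) p := by
  simpa only [div_eq_mul_inv] using h.mul (h'.inv h0)

theorem An.zpow {u : S → ℂ} (h : An u p) (h0 : u p ≠ 0) (k : ℤ) : An (fun x => u x ^ k) p :=
  An.comp (g := fun z : ℂ => z ^ k) (analyticAt_id.zpow h0) h

theorem an_sum {ι : Type} (t : Finset ι) {u : ι → S → F} (h : ∀ i ∈ t, An (u i) p) :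
    An (fun x => ∑ i ∈ t, u i x) p := Finset.analyticAt_fun_sum t h

theorem an_prod {ι : Type} (t : Finset ι) {u : ι → S → ℂ} (h : ∀ i ∈ t, An (u i) p) :
    An (fun x => ∏ i ∈ t, u i x) p := Finset.analyticAt_fun_prod t h

theorem an_pi {ι : Type} [Fintype ι] {u : S → ι → ℂ} : An u p ↔ ∀ i, An (fun x => u x i) p :=
  analyticAt_pi_iff

theorem an_det {ι : Type} [Fintype ι] [DecidableEq ι] {T : S → Matrix ι ι ℂ}
    (h : ∀ i j, An (fun x => T x i j) p) : An (fun x => (T x).det) p := by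
  simp only [Matrix.det_apply']
  exact an_sum _ fun σ _ => (an_const _).mul (an_prod _ fun i _ => h _ _)

theorem an_adjugate {ι : Type} [Fintype ι] [DecidableEq ι] {T : S → Matrix ι ι ℂ}
    (h : ∀ i j, An (fun x => T x i j) p) (i j : ι) : An (fun x => (T x).adjugate i j) p := by
  simp only [Matrix.adjugate_apply]
  refine an_det fun k l => ?_
  by_cases hk : k = j
  · subst hk
    simp only [Matrix.updateRow_self]
    exact an_const _
  · simp only [Matrix.updateRow_ne hk]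
    exact h k l

theorem an_eval {ι : Type} (P : MvPolynomial ι ℂ) {u : S → ι → ℂ}
    (h : ∀ i, An (fun x => u x i) p) : An (fun x => MvPolynomial.eval (u x) P) p := by
  induction P using MvPolynomial.induction_on with
  | C a => simpa only [MvPolynomial.eval_C] using an_const a
  | add P Q hP hQ => simpa only [map_add] using hP.add hQ
  | mul_X P i hP => simpa only [map_mul, MvPolynomial.eval_X] using hP.mul (h i)

theorem an_iff [CompleteSpace F] {u : S → F} :
    An u p ↔ ContMDiffAt 𝓘(ℂ, Cm 1) 𝓘(ℂ, F) ω u p := by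
  rw [contMDiffAt_iff]
  simp only [mfld_simps, contDiffWithinAt_univ]
  exact ⟨fun h => ⟨h.continuousAt, AnalyticAt.contDiffAt h⟩, fun h => h.2.analyticAt⟩

/-- holomorphic in every chart of the atlas -/
theorem An.chart [CompleteSpace F] [IsManifold 𝓘(ℂ, Cm 1) ω S] {u : S → F} (h : An u p)
    {e : Chart 1 S} (he : At e p) : AnalyticAt ℂ (fun z => u (e.symm z)) (e p) := by
  have h1 : ContMDiffAt 𝓘(ℂ, Cm 1) 𝓘(ℂ, Cm 1) ω e.symm (e p) :=
    (contMDiffOn_symm_of_mem_maximalAtlas (IsManifold.subset_maximalAtlas he.1)).contMDiffAt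
      (e.open_target.mem_nhds (e.map_source he.2))
  exact (contMDiffAt_iff_contDiffAt.1
    ((an_iff.1 h).comp_of_eq h1 (e.left_inv he.2))).analyticAt

/-- a holomorphic map in a chart of the target -/
theorem an_chart_comp {n : ℕ} {X : Type} [TopologicalSpace X] [ChartedSpace (Cm n) X]
    [IsManifold 𝓘(ℂ, Cm n) ω X] {f : S → X} (hf : ContMDiffAt 𝓘(ℂ, Cm 1) 𝓘(ℂ, Cm n) ω f p)
    {e : Chart n X} (he : At e (f p)) : An (fun x => e (f x)) p :=
  an_iff.2 (((contMDiffOn_of_mem_maximalAtlas (IsManifold.subset_maximalAtlas he.1)).contMDiffAt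
    (e.open_source.mem_nhds he.2)).comp p hf)

/-- a function which is holomorphic in a chart of the target, along a holomorphic map -/
theorem an_comp_chart {n : ℕ} {X : Type} [TopologicalSpace X] [ChartedSpace (Cm n) X]
    [IsManifold 𝓘(ℂ, Cm n) ω X] {f : S → X} (hf : ContMDiffAt 𝓘(ℂ, Cm 1) 𝓘(ℂ, Cm n) ω f p)
    {e : Chart n X} (he : At e (f p)) {g : X → F}
    (hg : AnalyticAt ℂ (fun z => g (e.symm z)) (e (f p))) : An (fun x => g (f x)) p := by
  refine (An.comp (u := fun x => e (f x)) (g := fun z => g (e.symm z)) hg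
    (an_chart_comp hf he)).congr ?_
  filter_upwards [hf.continuousAt.eventually (e.open_source.mem_nhds he.2)] with x hx
  exact congrArg g (e.left_inv hx)

theorem an_lpar : An (lpar p) p := by
  have h1 : AnalyticAt ℂ (fun z : Cm 1 => z 0 - chartAt (Cm 1) p p 0) (chartAt (Cm 1) p p) :=
    ((ContinuousLinearMap.proj (R := ℂ) (φ := fun _ : Fin 1 => ℂ) 0).analyticAt _).sub
      analyticAt_const
  refine h1.congr ?_
  filter_upwards [(chartAt (Cm 1) p).open_target.mem_nhds (mem_chart_target _ p)] with z hz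
  show _ = chartAt (Cm 1) p ((chartAt (Cm 1) p).symm z) 0 - _
  rw [(chartAt (Cm 1) p).right_inv hz]

theorem lpar_self : lpar p p = 0 := sub_self _

theorem lpar_ne : ∀ᶠ x in 𝓝[≠] p, lpar p x ≠ 0 := by
  filter_upwards [self_mem_nhdsWithin, nhdsWithin_le_nhds
    ((chartAt (Cm 1) p).open_source.mem_nhds (mem_chart_source _ p))] with x hx hs h
  refine hx ((chartAt (Cm 1) p).injOn hs (mem_chart_source _ p) (funext fun i => ?_))
  rw [Subsingleton.elim i 0]
  exact sub_eq_zero.1 h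

end an

section ord

variable {p : S} {h h' u : S → ℂ} {m m' : ℤ}

theorem ordAt_iff : OrdAt h p m ↔
    ∃ u : S → ℂ, An u p ∧ u p ≠ 0 ∧ ∀ᶠ x in 𝓝[≠] p, h x = u x * lpar p x ^ m := Iff.rfl

theorem OrdAt.congr (H : OrdAt h p m) (e : h =ᶠ[𝓝[≠] p] h') : OrdAt h' p m := by
  obtain ⟨u, h1, h2, h3⟩ := H
  refine ⟨u, h1, h2, ?_⟩
  filter_upwards [h3, e] with x hx ex using ex.symm.trans hx

theorem OrdAt.ne (H : OrdAt h p m) : ∀ᶠ x in 𝓝[≠] p, h x ≠ 0 := by
  obtain ⟨u, h1, h2, h3⟩ := ordAt_iff.1 H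
  filter_upwards [h3, lpar_ne, nhdsWithin_le_nhds (h1.continuousAt.eventually_ne h2)]
    with x hx hl hu
  rw [hx]
  exact mul_ne_zero hu (zpow_ne_zero _ hl)

theorem An.ordAt_zero (H : An u p) (h0 : u p ≠ 0) : OrdAt u p 0 :=
  ⟨u, H, h0, Eventually.of_forall fun x => by rw [zpow_zero, mul_one]⟩

theorem ordAt_lpar : OrdAt (lpar p) p 1 :=
  ordAt_iff.2 ⟨fun _ => 1, an_const _, one_ne_zero, Eventually.of_forall fun x => by
    rw [zpow_one, one_mul]⟩

theorem OrdAt.mul (H : OrdAt h p m) (H' : OrdAt h' p m') :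
    OrdAt (fun x => h x * h' x) p (m + m') := by
  obtain ⟨u, h1, h2, h3⟩ := ordAt_iff.1 H
  obtain ⟨v, k1, k2, k3⟩ := ordAt_iff.1 H'
  refine ordAt_iff.2 ⟨fun x => u x * v x, h1.mul k1, mul_ne_zero h2 k2, ?_⟩
  filter_upwards [h3, k3, lpar_ne] with x hx kx hl
  rw [hx, kx, zpow_add₀ hl]
  ring

theorem OrdAt.zpow (H : OrdAt h p m) (k : ℤ) : OrdAt (fun x => h x ^ k) p (m * k) := by
  obtain ⟨u, h1, h2, h3⟩ := ordAt_iff.1 H
  refine ordAt_iff.2 ⟨fun x => u x ^ k, h1.zpow h2 k, zpow_ne_zero _ h2, ?_⟩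
  filter_upwards [h3] with x hx
  rw [hx, mul_zpow, zpow_mul]

theorem OrdAt.pow (H : OrdAt h p m) (k : ℕ) : OrdAt (fun x => h x ^ k) p (m * k) := by
  simpa only [zpow_natCast] using H.zpow k

theorem OrdAt.inv (H : OrdAt h p m) : OrdAt (fun x => (h x)⁻¹) p (-m) := by
  simpa only [zpow_neg, zpow_one, mul_neg, mul_one] using H.zpow (-1)

theorem OrdAt.div (H : OrdAt h p m) (H' : OrdAt h' p m') :
    OrdAt (fun x => h x / h' x) p (m - m') := by
  simpa only [div_eq_mul_inv, sub_eq_add_neg] using H.mul H'.inv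

/-- a holomorphic function is zero near `p` or has an order -/
theorem An.factor (H : An u p) :
    (∀ᶠ x in 𝓝 p, u x = 0) ∨ ∃ k : ℕ, OrdAt u p k ∧ (u p ≠ 0 ↔ k = 0) := by
  have hκ : Tendsto (fun x => chartAt (Cm 1) p x 0) (𝓝 p) (𝓝 (chartAt (Cm 1) p p 0)) :=
    ((continuous_apply 0).continuousAt.comp
      ((chartAt (Cm 1) p).continuousAt (mem_chart_source _ p)))
  have hc : ∀ z : Cm 1, (fun _ : Fin 1 => z 0) = z := fun z =>
    funext fun i => by rw [Subsingleton.elim i 0]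
  have hg : AnalyticAt ℂ (fun τ : ℂ => u ((chartAt (Cm 1) p).symm fun _ => τ))
      (chartAt (Cm 1) p p 0) :=
    AnalyticAt.comp_of_eq (g := fun z => u ((chartAt (Cm 1) p).symm z))
      (f := fun (τ : ℂ) (_ : Fin 1) => τ) H (analyticAt_pi_iff.2 fun _ => analyticAt_id) (hc _)
  have hu : ∀ᶠ x in 𝓝 p,
      u ((chartAt (Cm 1) p).symm fun _ => chartAt (Cm 1) p x 0) = u x := by
    filter_upwards [(chartAt (Cm 1) p).open_source.mem_nhds (mem_chart_source _ p)] with x hx
    rw [hc, (chartAt (Cm 1) p).left_inv hx]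
  by_cases h0 : ∀ᶠ τ in 𝓝 (chartAt (Cm 1) p p 0), u ((chartAt (Cm 1) p).symm fun _ => τ) = 0
  · left
    filter_upwards [hκ.eventually h0, hu] with x h1 h2 using h2.symm.trans h1
  · right
    obtain ⟨k, w, w1, w2, w3⟩ := hg.exists_eventuallyEq_pow_smul_nonzero_iff.2 h0
    have h1 : ∀ᶠ x in 𝓝 p, u x = w (chartAt (Cm 1) p x 0) * lpar p x ^ k := by
      filter_upwards [hκ.eventually w3, hu] with x h1 h2
      rw [← h2, h1, smul_eq_mul, mul_comm]
      rfl
    have h2 : An (fun x => chartAt (Cm 1) p x 0) p := by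
      simpa only [lpar, sub_add_cancel] using
        (an_lpar (p := p)).add (an_const (chartAt (Cm 1) p p 0))
    refine ⟨k, ordAt_iff.2 ⟨fun x => w (chartAt (Cm 1) p x 0), An.comp w1 h2, w2, ?_⟩, ?_⟩
    · filter_upwards [nhdsWithin_le_nhds h1] with x hx
      rw [hx, zpow_natCast]
    · rw [h1.self_of_nhds, lpar_self]
      rcases k with _ | k
      · simpa using w2
      · simp

theorem An.ord (H : An u p) (h0 : ∀ᶠ x in 𝓝[≠] p, u x ≠ 0) [(𝓝[≠] p).NeBot] :
    ∃ k : ℕ, OrdAt u p k ∧ (u p ≠ 0 ↔ k = 0) :=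
  H.factor.resolve_left fun h =>
    let ⟨_, hx⟩ := (h0.and (nhdsWithin_le_nhds h)).exists
    hx.1 hx.2

theorem neBot_punct (p : S) : (𝓝[≠] p).NeBot := by
  have h1 : Tendsto (chartAt (Cm 1) p).symm (𝓝[≠] (chartAt (Cm 1) p p)) (𝓝[≠] p) := by
    refine tendsto_nhdsWithin_iff.2 ⟨((chartAt (Cm 1) p).tendsto_symm
      (mem_chart_source _ p)).mono_left nhdsWithin_le_nhds, ?_⟩
    filter_upwards [self_mem_nhdsWithin, nhdsWithin_le_nhds
      ((chartAt (Cm 1) p).open_target.mem_nhds (mem_chart_target _ p))] with z hz ht h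
    exact hz (((chartAt (Cm 1) p).right_inv ht).symm.trans (congrArg _ h))
  exact h1.neBot

theorem An.ord' (H : An u p) (h0 : ∀ᶠ x in 𝓝[≠] p, u x ≠ 0) :
    ∃ k : ℕ, OrdAt u p k ∧ (u p ≠ 0 ↔ k = 0) :=
  haveI := neBot_punct p
  H.ord h0

theorem OrdAt.eq_zero (H : OrdAt (fun _ => (1 : ℂ)) p m) : m = 0 := by
  have key : ∀ k : ℕ, OrdAt (fun _ => (1 : ℂ)) p ((k + 1 : ℕ) : ℤ) → False := by
    intro k H
    obtain ⟨u, h1, -, h3⟩ := ordAt_iff.1 H
    have := neBot_punct p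
    have h4 : Tendsto (fun x => u x * lpar p x ^ (k + 1)) (𝓝[≠] p)
        (𝓝 (u p * lpar p p ^ (k + 1))) :=
      (h1.mul (an_lpar.pow (k + 1))).continuousAt.tendsto.mono_left nhdsWithin_le_nhds
    have h5 : Tendsto (fun x => u x * lpar p x ^ (k + 1)) (𝓝[≠] p) (𝓝 1) :=
      tendsto_const_nhds.congr' (h3.mono fun x hx => by rw [hx, zpow_natCast])
    have := tendsto_nhds_unique h4 h5
    rw [lpar_self] at this
    simp at this
  rcases lt_trichotomy m 0 with hm | hm | hm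
  · have h1 := H.inv
    simp only [inv_one] at h1
    obtain ⟨k, hk⟩ : ∃ k : ℕ, -m = ((k + 1 : ℕ) : ℤ) := ⟨(-m - 1).toNat, by omega⟩
    exact (key k (hk ▸ h1)).elim
  · exact hm
  · obtain ⟨k, hk⟩ : ∃ k : ℕ, m = ((k + 1 : ℕ) : ℤ) := ⟨(m - 1).toNat, by omega⟩
    exact (key k (hk ▸ H)).elim

theorem OrdAt.unique (H : OrdAt h p m) (H' : OrdAt h p m') : m = m' :=
  sub_eq_zero.1 (OrdAt.eq_zero ((H.div H').congr (H.ne.mono fun _ hx => div_self hx)))

end ord

section ident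

omit [ChartedSpace (Cm 1) S] in
theorem ident_core [PreconnectedSpace S] {Z : Set S}
    (hZ : ∀ p, (∀ᶠ c in 𝓝 p, c ∈ Z) ∨ ∀ᶠ c in 𝓝[≠] p, c ∉ Z) {c₀ : S} (h0 : c₀ ∉ Z) (p : S) :
    ∀ᶠ c in 𝓝[≠] p, c ∉ Z := by
  have h1 : IsClosed (interior Z) := by
    rw [← isOpen_compl_iff, isOpen_iff_mem_nhds]
    intro q hq
    have h2 := (hZ q).resolve_left fun h => hq (mem_interior_iff_mem_nhds.2 h)
    filter_upwards [eventually_nhdsWithin_iff.1 h2] with c hc hi
    by_cases e : c = q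
    · exact hq (e ▸ hi)
    · exact hc e (interior_subset hi)
  rcases isClopen_iff.1 ⟨h1, isOpen_interior⟩ with h2 | h2
  · exact (hZ p).resolve_left fun h => by
      have : p ∈ interior Z := mem_interior_iff_mem_nhds.2 h
      rw [h2] at this
      exact this
  · exact absurd (interior_subset (h2 ▸ Set.mem_univ c₀ : c₀ ∈ interior Z)) h0

omit [ChartedSpace (Cm 1) S] in
theorem finite_of_discrete [CompactSpace S] {Z : Set S} (h : ∀ p, ∀ᶠ c in 𝓝[≠] p, c ∉ Z) :
    Z.Finite := by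
  obtain ⟨t, -, ht⟩ := isCompact_univ.elim_nhds_subcover (fun p => {c | c ≠ p → c ∉ Z})
    fun p _ => eventually_nhdsWithin_iff.1 (h p)
  refine t.finite_toSet.subset fun c hc => ?_
  obtain ⟨p, hp, h1⟩ := Set.mem_iUnion₂.1 (ht (Set.mem_univ c))
  by_contra hn
  exact h1 (fun e => hn (e ▸ hp)) hc

/-- **the identity theorem** for a set which is locally the zero set of finitely many holomorphic
functions -/
theorem ident [PreconnectedSpace S] {ι : Type} [Finite ι] {Z : Set S}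
    (hZ : ∀ p, ∃ u : S → ι → ℂ, (∀ i, An (fun x => u x i) p) ∧ ∀ᶠ c in 𝓝 p, (c ∈ Z ↔ u c = 0))
    {c₀ : S} (h0 : c₀ ∉ Z) (p : S) : ∀ᶠ c in 𝓝[≠] p, c ∉ Z := by
  refine ident_core (fun q => ?_) h0 p
  obtain ⟨u, h1, h2⟩ := hZ q
  by_cases h3 : ∀ i, ∀ᶠ x in 𝓝 q, u x i = 0
  · left
    filter_upwards [h2, eventually_all.2 h3] with c hc h using hc.2 (funext h)
  · right
    obtain ⟨i, hi⟩ := not_forall.1 h3
    obtain ⟨k, hk, -⟩ := (h1 i).factor.resolve_left hi
    filter_upwards [hk.ne, nhdsWithin_le_nhds h2] with c hc h hz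
    exact hc (congrFun (h.1 hz) i)

theorem ident1 [PreconnectedSpace S] {Z : Set S}
    (hZ : ∀ p, ∃ u : S → ℂ, An u p ∧ ∀ᶠ c in 𝓝 p, (c ∈ Z ↔ u c = 0))
    {c₀ : S} (h0 : c₀ ∉ Z) (p : S) : ∀ᶠ c in 𝓝[≠] p, c ∉ Z :=
  ident (ι := Unit) (fun q => let ⟨u, h1, h2⟩ := hZ q
    ⟨fun x _ => u x, fun _ => h1, h2.mono fun _ hc =>
      hc.trans ⟨fun h => funext fun _ => h, fun h => congrFun h ()⟩⟩) h0 p

end ident

end Vale.Agent.P280A

end
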